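import Vale.Agent.P017.R3.H985.D1a
import Vale.Agent.P017.R3.H224.Red2

/-!
# P017 density project: D1b, from the local conditions to `b = 1` or `b = -d`
-/

open Finset

namespace Vale.Agent.P017.R3.H916

open Vale.Agent.P017.R2.H985 (bit PF Pat sym Mat cork)
open Vale.Agent.P017.R2.H816
open Vale.Agent.P017.H185
open Vale.Agent.P017.R3.H985 (ext_mulVec bit_dvd sum_pf bit53)

theorem mod4_of_odd {q : ℕ} (h : Odd q) : q % 4 = 1 ∨ q % 4 = 3 := by
  obtain ⟨k, hk⟩ := h
  omega

/-- the left kernel is zero as well -/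
theorem left_zero {V : Type} [Fintype V] [DecidableEq V] (M : Matrix V V (ZMod 2))
    (h : ck M = 0) (x : V → ZMod 2) (hx : M.vecMul x = 0) : x = 0 := by
  have h1 : Module.finrank (ZMod 2) (LinearMap.ker M.vecMulLinear) = 0 := by
    rw [finrank_left]
    exact h
  exact Vale.Agent.P017.R3.H224.eq_zero_of_ker (f := M.vecMulLinear) h1 (by simpa using hx)

theorem ext_vecMul {V : Type} [Fintype V] (M : Matrix V V (ZMod 2)) (φ ψ : V → ZMod 2)
    (w : ZMod 2) (x : Option V → ZMod 2) :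
    (∀ q, (ext M φ ψ w).vecMul x (some q) = (∑ a, x (some a) * M a q) + x none * ψ q) ∧
    (ext M φ ψ w).vecMul x none = (∑ a, x (some a) * φ a) + x none * w := by
  constructor
  · intro q
    rw [Matrix.vecMul, dotProduct, Fintype.sum_option, add_comm]
    rfl
  · rw [Matrix.vecMul, dotProduct, Fintype.sum_option, add_comm]
    rfl

/-- reciprocity for `b ≡ 1 mod 4` of either sign -/
theorem jac_natAbs {b : ℤ} (hb : b % 4 = 1) {q : ℕ} (hq : Odd q) :
    jacobiSym b q = jacobiSym (q : ℤ) b.natAbs := by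
  have hbo : Odd b.natAbs := by
    rw [Int.natAbs_odd, Int.odd_iff]
    omega
  rcases Int.natAbs_eq b with h | h
  · have h4 : b.natAbs % 4 = 1 := by omega
    conv_lhs => rw [h]
    exact jacobiSym.quadratic_reciprocity_one_mod_four h4 hq
  · have h4 : b.natAbs % 4 = 3 := by omega
    conv_lhs => rw [h]
    rw [jacobiSym.neg _ hq]
    rcases mod4_of_odd hq with h1 | h1
    · rw [ZMod.χ₄_nat_one_mod_four h1, one_mul]
      exact (jacobiSym.quadratic_reciprocity_one_mod_four h1 hbo).symm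
    · rw [ZMod.χ₄_nat_three_mod_four h1]
      have := jacobiSym.quadratic_reciprocity_three_mod_four h4 h1
      rw [this]
      ring

theorem bit_natAbs {b : ℤ} (hb : b % 4 = 1) {q : ℕ} (hq : Odd q) :
    bit b q = bit (q : ℤ) b.natAbs := by
  unfold bit
  rw [jac_natAbs hb hq]

theorem jac_ne' {q c : ℕ} (hq : q.Prime) (hc : c ≠ 0) (h : ¬ q ∣ c) :
    jacobiSym (q : ℤ) c ≠ 0 := by
  have _ := NeZero.mk hc
  apply jacobiSym.ne_zero
  rw [Int.gcd_natCast_natCast]
  exact (Nat.Prime.coprime_iff_not_dvd hq).mpr h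

theorem bit_mul_right {a : ℤ} {c c' : ℕ} (hc : c ≠ 0) (hc' : c' ≠ 0) (h : jacobiSym a c ≠ 0)
    (h' : jacobiSym a c' ≠ 0) : bit a (c * c') = bit a c + bit a c' := by
  unfold bit
  have _ := NeZero.mk hc
  have _ := NeZero.mk hc'
  rw [jacobiSym.mul_right]
  rcases jacobiSym.trichotomy a c with h1 | h1 | h1
  · exact absurd h1 h
  · rcases jacobiSym.trichotomy a c' with h2 | h2 | h2
    · exact absurd h2 h'
    · rw [h1, h2]; decide
    · rw [h1, h2]; decide
  · rcases jacobiSym.trichotomy a c' with h2 | h2 | h2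
    · exact absurd h2 h'
    · rw [h1, h2]; decide
    · rw [h1, h2]; decide

theorem bit_one_right (a : ℤ) : bit a 1 = 0 := by
  unfold bit
  rw [jacobiSym.one_right]
  rfl

/-- the symbol modulo a squarefree number -/
theorem bit_right {q : ℕ} (hq : q.Prime) : ∀ c : ℕ, Squarefree c → ¬ q ∣ c →
    bit (q : ℤ) c = ∑ r ∈ c.primeFactors, bit (q : ℤ) r := by
  intro c
  induction c using Nat.recOnMul with
  | zero => intro h; exact absurd rfl h.ne_zero
  | one => intro _ _; rw [bit_one_right]; simp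
  | prime p hp => intro _ _; rw [hp.primeFactors, sum_singleton]
  | mul a b iha ihb =>
    intro h hn
    have hab := Nat.squarefree_mul_iff.mp h
    have hna : ¬ q ∣ a := fun h => hn (h.mul_right b)
    have hnb : ¬ q ∣ b := fun h => hn (h.mul_left a)
    rw [bit_mul_right hab.2.1.ne_zero hab.2.2.ne_zero (jac_ne' hq hab.2.1.ne_zero hna)
      (jac_ne' hq hab.2.2.ne_zero hnb), iha hab.2.1 hna, ihb hab.2.2 hnb,
      hab.1.primeFactors_mul, sum_union hab.1.disjoint_primeFactors]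

/-- the symbol modulo a divisor -/
theorem bit_right_dvd {D c q : ℕ} (hD : Squarefree D) (hc : c ∣ D) (hq : q.Prime) (h : ¬ q ∣ c) :
    bit (q : ℤ) c = ∑ r ∈ D.primeFactors, if r ∣ c then bit (q : ℤ) r else 0 := by
  have hc0 : c ≠ 0 := by rintro rfl; exact hD.ne_zero (zero_dvd_iff.mp hc)
  rw [bit_right hq c (hD.squarefree_of_dvd hc) h, ← sum_filter]
  apply sum_congr _ fun _ _ => rfl
  ext r
  rw [mem_filter, Nat.mem_primeFactors, Nat.mem_primeFactors]
  exact ⟨fun h => ⟨⟨h.1, h.2.1.trans hc, hD.ne_zero⟩, h.2.1⟩, fun h => ⟨h.1.1, h.2, hc0⟩⟩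

/-- the symbol modulo a divisor without `q` -/
theorem bit_right_div {D c β q : ℕ} (hD : Squarefree D) (hc : c ∣ D) (hq : q.Prime)
    (hβ : c = q * β) :
    ¬ q ∣ β ∧ bit (q : ℤ) β = ∑ r ∈ D.primeFactors, if r ∣ c then bit (q : ℤ) r else 0 := by
  have hβD : β ∣ D := (Dvd.intro_left q hβ.symm).trans hc
  have hqβ : ¬ q ∣ β := by
    intro h
    have : q * q ∣ D := (Nat.mul_dvd_mul_left q h).trans (hβ ▸ hc)
    exact hq.one_lt.ne' (Nat.isUnit_iff.mp (hD q this))
  refine ⟨hqβ, ?_⟩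
  rw [bit_right_dvd hD hβD hq hqβ]
  apply sum_congr rfl
  intro r hr
  have hr' := Nat.prime_of_mem_primeFactors hr
  by_cases hrq : r = q
  · subst hrq
    rw [if_neg hqβ, if_pos ⟨β, hβ⟩, bit_self hr']
  · have : r ∣ c ↔ r ∣ β := by
      rw [hβ]
      constructor
      · intro h
        rcases (Nat.Prime.dvd_mul hr').mp h with h | h
        · exact absurd ((Nat.prime_dvd_prime_iff_eq hr' hq).mp h) hrq
        · exact h
      · intro h; exact h.mul_left q
    by_cases h : r ∣ c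
    · rw [if_pos h, if_pos (this.mp h)]
    · rw [if_neg h, if_neg (fun h' => h (this.mpr h'))]

theorem bit35 : bit (3 : ℤ) 5 = 1 := by
  unfold bit
  rw [if_pos (by norm_num)]

theorem bit_mod5 {a : ℕ} (h : a % 5 = 1 ∨ a % 5 = 4) : bit (a : ℤ) 5 = 0 := by
  apply bit_of_isSquare
  have h1 : ((a : ℤ) : ZMod 5) = ((a % 5 : ℕ) : ZMod 5) := by
    push_cast
    simp
  rcases h with h | h
  · exact ⟨1, by rw [h1, h]; decide⟩
  · exact ⟨2, by rw [h1, h]; decide⟩

/-- **second half of D1b** -/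
theorem second_half {n p : ℕ} {b : ℤ} (hn : Squarefree n) (ho : Odd n) (h3 : ¬ 3 ∣ n) (_h5 : ¬ 5 ∣ n)
    (hp : p.Prime) (p5 : 5 < p) (hpn : ¬ p ∣ n) (hok : OK2 (n * p)) (h4 : (n * p) % 4 = 3)
    (hc : ck (ext (Mat n (sym n p)) (fun q => bit ((q : ℕ) : ℤ) 5)
      (fun q => bit ((q : ℕ) : ℤ) 3) 1) = 0)
    (hb : Squarefree b) (hb4 : b % 4 = 1)
    (hbp : ∀ q : ℕ, q.Prime → (q : ℤ) ∣ b → q ∣ n * p * 3)
    (hloc1 : ∀ q : ℕ, q.Prime → q ∣ n * p → ¬ (q : ℤ) ∣ b → IsSquare (b : ZMod q))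
    (hloc2 : ∀ q : ℕ, q.Prime → q ∣ n * p → ∀ β δ : ℤ, b = q * β → ((n * p : ℕ) : ℤ) = q * δ →
      IsSquare ((-(δ * β) : ℤ) : ZMod q))
    (hb5 : IsSquare (b : ZMod 5)) :
    b = 1 ∨ b = -((n * p : ℕ) : ℤ) := by
  classical
  have hn0 := hn.ne_zero
  have hp3 : p ≠ 3 := by omega
  have h5p : Nat.Prime 5 := Nat.prime_five
  have h3p : Nat.Prime 3 := Nat.prime_three
  have hcop : Nat.Coprime n p := ((Nat.Prime.coprime_iff_not_dvd hp).mpr hpn).symm
  have hd : Squarefree (n * p) := (Nat.squarefree_mul hcop).mpr ⟨hn, hp.squarefree⟩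
  have hdo : Odd (n * p) := ho.mul (hp.odd_of_ne_two (by omega))
  have h3d : ¬ 3 ∣ n * p := by have := hok.1; omega
  have hD : Squarefree (n * p * 3) :=
    (Nat.squarefree_mul ((Nat.Prime.coprime_iff_not_dvd h3p).mpr h3d).symm).mpr
      ⟨hd, h3p.squarefree⟩
  have hqp : ∀ q : PF n, (q : ℕ).Prime := fun q => Nat.prime_of_mem_primeFactors q.2
  have hqn : ∀ q : PF n, (q : ℕ) ∣ n := fun q => Nat.dvd_of_mem_primeFactors q.2
  have hq2 : ∀ q : PF n, (q : ℕ) ≠ 2 := by
    intro q hq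
    have h2 : 2 ∣ n := hq ▸ hqn q
    rcases ho with ⟨k, hk⟩
    omega
  have hqo : ∀ q : PF n, Odd (q : ℕ) := fun q => (hqp q).odd_of_ne_two (hq2 q)
  have hsum : ∀ f : ℕ → ZMod 2, ∑ r ∈ (n * p * 3).primeFactors, f r =
      (∑ q : PF n, f q) + f p + f 3 := fun f => sum_pf hn0 hp h3p hpn h3 hp3 f
  obtain ⟨B, hB⟩ : ∃ B : ℕ, B = b.natAbs := ⟨_, rfl⟩
  have hBs : Squarefree B := by rw [hB]; exact Int.squarefree_natAbs.mpr hb
  have hBd : ∀ q : ℕ, (q : ℤ) ∣ b ↔ q ∣ B := by
    intro q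
    rw [hB, Int.natCast_dvd]
  have hBD : B ∣ n * p * 3 := by
    rw [← Nat.prod_primeFactors_of_squarefree hBs]
    conv_rhs => rw [← Nat.prod_primeFactors_of_squarefree hD]
    apply prod_dvd_prod_of_subset
    intro q hq
    have hq1 := Nat.prime_of_mem_primeFactors hq
    exact Nat.mem_primeFactors.mpr ⟨hq1, hbp q hq1 ((hBd q).mpr (Nat.dvd_of_mem_primeFactors hq)),
      hD.ne_zero⟩
  have hbs : b = B ∨ b = -(B : ℤ) := by rw [hB]; exact Int.natAbs_eq b
  -- the vector
  let x : ℕ → ZMod 2 := fun r => if r ∣ B then 1 else 0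
  let v : Option (PF n) → ZMod 2 := fun a => match a with
    | some q => x q + x p
    | none => x 3
  have hbx : ∀ g : ℕ → ZMod 2, (∑ r ∈ (n * p * 3).primeFactors, if r ∣ B then g r else 0) =
      (∑ r : PF n, x r * g r) + x p * g p + x 3 * g 3 := by
    intro g
    rw [hsum]
    have : ∀ r : ℕ, (if r ∣ B then g r else 0) = x r * g r := by
      intro r
      simp only [x]
      split_ifs <;> simp
    rw [this p, this 3, sum_congr rfl fun (r : PF n) _ => this r]
  have hdx : ∀ g : ℕ → ZMod 2, (∑ r ∈ (n * p * 3).primeFactors, if r ∣ n * p then g r else 0) =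
      (∑ r : PF n, g r) + g p := by
    intro g
    rw [hsum, if_pos (dvd_mul_left p n), if_neg h3d, add_zero]
    congr 1
    apply sum_congr rfl
    intro r _
    rw [if_pos ((hqn r).mul_right p)]
  have h2 : ∀ t : ZMod 2, t + t = 0 := CharTwo.add_self_eq_zero
  -- the equation at `q ∣ n`
  have heq : ∀ q : PF n, (∑ r : PF n, x r * bit ((q : ℕ) : ℤ) (r : ℕ)) +
      x p * bit ((q : ℕ) : ℤ) p + x 3 * bit ((q : ℕ) : ℤ) 3 +
      x q * ((∑ r : PF n, bit ((q : ℕ) : ℤ) (r : ℕ)) + bit ((q : ℕ) : ℤ) p) = 0 := by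
    intro q
    rw [← hbx (fun r => bit ((q : ℕ) : ℤ) r)]
    have hqd : (q : ℕ) ∣ n * p := (hqn q).mul_right p
    by_cases hqb : (q : ℕ) ∣ B
    · obtain ⟨β, hβ⟩ := hqb
      obtain ⟨δ, hδ⟩ := hqd
      obtain ⟨hqβ, g1⟩ := bit_right_div hD hBD (hqp q) hβ
      obtain ⟨hqδ, g2⟩ := bit_right_div hD (dvd_mul_right (n * p) 3) (hqp q) hδ
      rw [hdx (fun r => bit ((q : ℕ) : ℤ) r)] at g2
      have hx1 : x q = 1 := if_pos ⟨β, hβ⟩
      have hβ0 : β ≠ 0 := by rintro rfl; exact hqβ (dvd_zero _)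
      have hδ0 : δ ≠ 0 := by rintro rfl; exact hqδ (dvd_zero _)
      rw [hx1, one_mul, ← g1, ← g2, ← bit_mul_right hβ0 hδ0 (jac_ne' (hqp q) hβ0 hqβ)
        (jac_ne' (hqp q) hδ0 hqδ)]
      obtain ⟨β', hβ', hββ⟩ : ∃ β' : ℤ, b = (q : ℕ) * β' ∧ β'.natAbs = β := by
        rcases hbs with h | h
        · exact ⟨β, by rw [h, hβ]; push_cast; ring, by simp⟩
        · exact ⟨-β, by rw [h, hβ]; push_cast; ring, by simp⟩
      have hsq := bit_of_isSquare (hloc2 q (hqp q) ((hqn q).mul_right p) β' δ hβ'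
        (by rw [hδ]; push_cast; ring))
      have hc4 : (-((δ : ℤ) * β')) % 4 = 1 := by
        obtain ⟨k, hk⟩ := hqo q
        obtain ⟨j, hj⟩ : ∃ j : ℤ, b = 4 * j + 1 := ⟨b / 4, by omega⟩
        obtain ⟨i, hi⟩ : ∃ i : ℤ, ((n * p : ℕ) : ℤ) = 4 * i + 3 :=
          ⟨((n * p : ℕ) : ℤ) / 4, by omega⟩
        have e1 : (((q : ℕ) : ℤ)) ^ 2 * (-((δ : ℤ) * β')) = -(4 * i + 3) * (4 * j + 1) := by
          rw [← hj, ← hi, hβ', hδ]; push_cast; ring
        rw [hk] at e1
        push_cast at e1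
        have e2 : -((δ : ℤ) * β') = 4 * (-(4 * i * j + i + 3 * j + 1) +
            (k * k + k) * ((δ : ℤ) * β')) + 1 := by
          linear_combination e1
        omega
      rw [bit_natAbs hc4 (hqo q)] at hsq
      rw [← hsq, Int.natAbs_neg, Int.natAbs_mul, Int.natAbs_natCast, hββ, mul_comm β δ]
    · have hx1 : x q = 0 := if_neg hqb
      have hsq := bit_of_isSquare (hloc1 q (hqp q) hqd (fun h => hqb ((hBd q).mp h)))
      rw [bit_natAbs hb4 (hqo q), ← hB, bit_right_dvd hD hBD (hqp q) hqb] at hsq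
      rw [hx1, zero_mul, add_zero]
      exact hsq
  -- the diagonal
  have hdiag : ∀ q : PF n, bit (p : ℤ) q + ∑ r ∈ univ.erase q, bit ((r : ℕ) : ℤ) (q : ℕ) =
      (∑ r : PF n, bit ((q : ℕ) : ℤ) (r : ℕ)) + bit ((q : ℕ) : ℤ) p := by
    intro q
    obtain ⟨δ, hδ⟩ : (q : ℕ) ∣ n * p := (hqn q).mul_right p
    have g1 := (bit_dvd hD (dvd_mul_right (n * p) 3) (hqp q)).2 δ hδ
    obtain ⟨hqδ, g2⟩ := bit_right_div hD (dvd_mul_right (n * p) 3) (hqp q) hδ
    rw [hdx (fun r => bit (r : ℤ) q)] at g1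
    rw [hdx (fun r => bit ((q : ℕ) : ℤ) r)] at g2
    have hδo : Odd δ := by
      have := hdo
      rw [hδ] at this
      exact (Nat.odd_mul.mp this).2
    have hrec : bit (δ : ℤ) q = bit ((q : ℕ) : ℤ) δ := by
      unfold bit
      rcases mod4_of_odd (hqo q) with h | h
      · rw [jacobiSym.quadratic_reciprocity_one_mod_four h hδo]
      · have hδ4 : δ % 4 = 1 := by
          rcases mod4_of_odd hδo with h' | h'
          · exact h'
          · exfalso
            rw [hδ, Nat.mul_mod, h, h'] at h4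
            omega
        rw [jacobiSym.quadratic_reciprocity_one_mod_four hδ4 (hqo q)]
    rw [← g2, ← hrec, g1, add_comm]
    congr 1
    rw [← add_sum_erase univ (fun r : PF n => bit ((r : ℕ) : ℤ) (q : ℕ)) (mem_univ q),
      bit_self (hqp q), zero_add]
  have hv : v = 0 := by
    apply left_zero _ hc
    have hext := ext_vecMul (Mat n (sym n p)) (fun q => bit ((q : ℕ) : ℤ) 5)
      (fun q => bit ((q : ℕ) : ℤ) 3) 1 v
    funext a
    rw [Pi.zero_apply]
    cases a with
    | some q =>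
      rw [hext.1 q]
      show (∑ r : PF n, (x r + x p) * Mat n (sym n p) r q) + x 3 * bit ((q : ℕ) : ℤ) 3 = 0
      have e1 : ∀ r : PF n, (x r + x p) * Mat n (sym n p) r q =
          (x r + x p) * bit ((q : ℕ) : ℤ) (r : ℕ) +
          if r = q then (x q + x p) * ((∑ r : PF n, bit ((q : ℕ) : ℤ) (r : ℕ)) +
            bit ((q : ℕ) : ℤ) p) else 0 := by
        intro r
        unfold Mat
        by_cases hr : q = r
        · subst hr
          rw [if_pos rfl, if_pos rfl, bit_self (hqp q), mul_zero, zero_add]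
          congr 1
          exact hdiag q
        · rw [if_neg hr, if_neg (fun h => hr h.symm), add_zero]
      rw [sum_congr rfl fun r _ => e1 r, sum_add_distrib, sum_ite_eq' univ q,
        if_pos (mem_univ _)]
      have e0 : (∑ r : PF n, (x r + x p) * bit ((q : ℕ) : ℤ) (r : ℕ)) =
          (∑ r : PF n, x r * bit ((q : ℕ) : ℤ) (r : ℕ)) +
            x p * ∑ r : PF n, bit ((q : ℕ) : ℤ) (r : ℕ) := by
        rw [mul_sum, ← sum_add_distrib]
        apply sum_congr rfl
        intro r _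
        ring
      rw [e0]
      have h6 := heq q
      have h7 := h2 (x p * ∑ r : PF n, bit ((q : ℕ) : ℤ) (r : ℕ))
      linear_combination h6 + h7
    | none =>
      rw [hext.2]
      show (∑ q : PF n, (x q + x p) * bit ((q : ℕ) : ℤ) 5) + x 3 * 1 = 0
      have h5D : ¬ 5 ∣ n * p * 3 := by
        intro h
        rcases (Nat.Prime.dvd_mul h5p).mp h with h | h
        · have := hok.2; omega
        · omega
      have h5B : ¬ 5 ∣ B := fun h => h5D (h.trans hBD)
      have g0 : bit (B : ℤ) 5 = 0 := by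
        rcases hbs with h | h
        · rw [← h]; exact bit_of_isSquare hb5
        · have := bit_of_isSquare hb5
          unfold bit at this ⊢
          rw [h, jacobiSym.neg _ (by decide : Odd 5)] at this
          rwa [ZMod.χ₄_nat_one_mod_four (by norm_num), one_mul] at this
      have g1 := (bit_dvd hD hBD h5p).1 h5B
      rw [g0, hbx (fun r => bit (r : ℤ) 5)] at g1
      have h5d : ¬ 5 ∣ n * p := fun h => h5D (h.mul_right 3)
      have g2 := (bit_dvd hD (dvd_mul_right (n * p) 3) h5p).1 h5d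
      rw [bit_mod5 hok.2, hdx (fun r => bit (r : ℤ) 5)] at g2
      have g3 : bit ((3 : ℕ) : ℤ) 5 = 1 := bit35
      rw [g3] at g1
      have e0 : (∑ q : PF n, (x q + x p) * bit ((q : ℕ) : ℤ) 5) =
          (∑ r : PF n, x r * bit ((r : ℕ) : ℤ) 5) + x p * ∑ r : PF n, bit ((r : ℕ) : ℤ) 5 := by
        rw [mul_sum, ← sum_add_distrib]
        apply sum_congr rfl
        intro r _
        ring
      rw [e0]
      have h6 := h2 (x p * bit (p : ℤ) 5)
      linear_combination -g1 - x p * g2 - h6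
  have hx3 : x 3 = 0 := congrFun hv none
  have hxq : ∀ q : PF n, x q + x p = 0 := fun q => congrFun hv (some q)
  have h3B : ¬ 3 ∣ B := by
    intro h
    have : x 3 = 1 := if_pos h
    rw [hx3] at this
    exact zero_ne_one this
  have hBd' : B ∣ n * p := by
    apply Nat.Coprime.dvd_of_dvd_mul_right _ hBD
    exact ((Nat.Prime.coprime_iff_not_dvd h3p).mpr h3B).symm
  have hBpf : B = ∏ r ∈ (n * p).primeFactors, if r ∣ B then r else 1 := (prod_if_dvd hd hBd').symm
  have hfin : B = 1 ∨ B = n * p := by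
    by_cases hpb : p ∣ B
    · right
      have hxp : x p = 1 := if_pos hpb
      rw [hBpf]
      conv_rhs => rw [← Nat.prod_primeFactors_of_squarefree hd]
      apply prod_congr rfl
      intro r hr
      rw [if_pos]
      have hr1 := Nat.prime_of_mem_primeFactors hr
      rcases (Nat.Prime.dvd_mul hr1).mp (Nat.dvd_of_mem_primeFactors hr) with h | h
      · have h1 := hxq ⟨r, Nat.mem_primeFactors.mpr ⟨hr1, h, hn0⟩⟩
        rw [hxp] at h1
        by_contra hcon
        have h2 : x r = 0 := if_neg hcon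
        rw [h2, zero_add] at h1
        exact one_ne_zero h1
      · rw [(Nat.prime_dvd_prime_iff_eq hr1 hp).mp h]; exact hpb
    · left
      have hxp : x p = 0 := if_neg hpb
      rw [hBpf]
      apply prod_eq_one
      intro r hr
      rw [if_neg]
      have hr1 := Nat.prime_of_mem_primeFactors hr
      rcases (Nat.Prime.dvd_mul hr1).mp (Nat.dvd_of_mem_primeFactors hr) with h | h
      · have h1 := hxq ⟨r, Nat.mem_primeFactors.mpr ⟨hr1, h, hn0⟩⟩
        rw [hxp, add_zero] at h1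
        intro hcon
        have h2 : x r = 1 := if_pos hcon
        rw [show x ((⟨r, Nat.mem_primeFactors.mpr ⟨hr1, h, hn0⟩⟩ : PF n) : ℕ) = x r from rfl,
          h2] at h1
        exact one_ne_zero h1
      · rw [(Nat.prime_dvd_prime_iff_eq hr1 hp).mp h]; exact hpb
  rcases hfin with h | h
  · left
    rcases hbs with h' | h'
    · rw [h', h]; rfl
    · rw [h', h] at hb4
      norm_num at hb4
  · right
    rcases hbs with h' | h'
    · exfalso
      rw [h', h] at hb4
      omega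
    · rw [h', h]

end Vale.Agent.P017.R3.H916
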