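import Vale.Agent.P017.R3.Defs

/-!
# P017, R3, module B3a: transition probabilities of the corank
-/

open Finset

namespace Vale.Agent.P017.R3.H916

open Vale.Agent.P017.R3

section

variable {V : Type} [Fintype V] [DecidableEq V]

theorem functional_eq (f : (V → ZMod 2) →ₗ[ZMod 2] ZMod 2) :
    ∃ y : V → ZMod 2, ∀ x, f x = dotProduct y x := by
  refine ⟨fun i => f fun j => if i = j then 1 else 0, fun x => ?_⟩
  rw [LinearMap.pi_apply_eq_sum_univ f x]
  simp only [dotProduct, smul_eq_mul]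
  exact Finset.sum_congr rfl fun i _ => mul_comm _ _

theorem sum_two {M : Type*} [AddCommMonoid M] (g : ZMod 2 → M) : ∑ t, g t = g 0 + g 1 :=
  Fin.sum_univ_two g

theorem card_submodule {ι : Type} [Fintype ι] [DecidableEq ι]
    (W : Submodule (ZMod 2) (ι → ZMod 2)) (p : (ι → ZMod 2) → Prop) [DecidablePred p]
    (h : ∀ x, p x ↔ x ∈ W) : (univ.filter p).card = 2 ^ Module.finrank (ZMod 2) W := by
  have h1 := Module.natCard_eq_pow_finrank (K := ZMod 2) (V := W)
  rw [Nat.card_zmod] at h1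
  rw [← h1, ← Fintype.card_subtype, ← Nat.card_eq_fintype_card]
  exact Nat.card_congr (Equiv.subtypeEquivRight h)

theorem card_ker (M : Matrix V V (ZMod 2)) :
    (univ.filter fun x : V → ZMod 2 => M.mulVec x = 0).card = 2 ^ ck M := by
  unfold ck
  apply card_submodule
  intro x
  rw [LinearMap.mem_ker, Matrix.mulVecLin_apply]

/-- vectors of the kernel with a given product -/
def kc (M : Matrix V V (ZMod 2)) (ψ : V → ZMod 2) (c : ZMod 2) : ℕ :=
  (univ.filter fun x : V → ZMod 2 => M.mulVec x = 0 ∧ dotProduct ψ x = c).card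

theorem kc_add (M : Matrix V V (ZMod 2)) (ψ : V → ZMod 2) :
    kc M ψ 0 + kc M ψ 1 = 2 ^ ck M := by
  rw [← card_ker M]
  unfold kc
  simp only [Finset.card_filter]
  rw [← Finset.sum_add_distrib]
  refine Finset.sum_congr rfl fun x _ => ?_
  by_cases h : M.mulVec x = 0
  · have h2 : ∀ a : ZMod 2, a = 0 ∨ a = 1 := by decide
    rcases h2 (dotProduct ψ x) with h0 | h0 <;> simp [h, h0]
  · simp [h]

def Bp (M : Matrix V V (ZMod 2)) (ψ : V → ZMod 2) : Prop :=
  ∀ x : V → ZMod 2, M.mulVec x = 0 → dotProduct ψ x = 0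

theorem kc_one_of {M : Matrix V V (ZMod 2)} {ψ : V → ZMod 2} (h : Bp M ψ) : kc M ψ 1 = 0 := by
  unfold kc
  rw [Finset.card_eq_zero, Finset.filter_eq_empty_iff]
  rintro x - ⟨h1, h2⟩
  rw [h x h1] at h2
  exact zero_ne_one h2

theorem kc_zero_of {M : Matrix V V (ZMod 2)} {ψ : V → ZMod 2} (h : Bp M ψ) :
    kc M ψ 0 = 2 ^ ck M := by
  have := kc_add M ψ
  rw [kc_one_of h] at this
  omega

theorem kc_eq_of_not {M : Matrix V V (ZMod 2)} {ψ : V → ZMod 2} (h : ¬ Bp M ψ) :
    kc M ψ 0 = kc M ψ 1 := by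
  unfold Bp at h
  push Not at h
  obtain ⟨x1, h1, h2⟩ := h
  have h3 : dotProduct ψ x1 = 1 := by
    have h2' : ∀ a : ZMod 2, a ≠ 0 → a = 1 := by decide
    exact h2' _ h2
  unfold kc
  apply Finset.card_equiv (Equiv.addRight x1)
  intro x
  simp only [Finset.mem_filter, Finset.mem_univ, true_and, Equiv.coe_addRight]
  rw [Matrix.mulVec_add, h1, add_zero, dotProduct_add, h3]
  have h4 : ∀ a : ZMod 2, a = 0 ↔ a + 1 = 1 := by decide
  rw [h4]

theorem kc_any_of_not {M : Matrix V V (ZMod 2)} {ψ : V → ZMod 2} (h : ¬ Bp M ψ) (c : ZMod 2) :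
    kc M ψ 0 + kc M ψ c = 2 ^ ck M ∧ 1 ≤ ck M := by
  have h1 := kc_add M ψ
  have h2 := kc_eq_of_not h
  have h3 : ∀ a : ZMod 2, a = 0 ∨ a = 1 := by decide
  have h4 : 1 ≤ ck M := by
    rcases Nat.eq_zero_or_pos (ck M) with h0 | h0
    · rw [h0] at h1
      omega
    · exact h0
  refine ⟨?_, h4⟩
  rcases h3 c with rfl | rfl <;> omega

/-! ### Bordered matrices -/

theorem ext_mulVec (M : Matrix V V (ZMod 2)) (φ ψ : V → ZMod 2) (w t : ZMod 2)
    (x : V → ZMod 2) : (ext M φ ψ w).mulVec (extv x t) = 0 ↔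
      M.mulVec x + t • φ = 0 ∧ dotProduct ψ x + w * t = 0 := by
  constructor
  · intro h
    refine ⟨funext fun q => ?_, ?_⟩
    · have := congrFun h (some q)
      simp only [Matrix.mulVec, dotProduct, Fintype.sum_option, ext, extv, Pi.zero_apply] at this
      simp only [Matrix.mulVec, dotProduct, Pi.add_apply, Pi.smul_apply, smul_eq_mul,
        Pi.zero_apply]
      rw [← this]; ring
    · have := congrFun h none
      simp only [Matrix.mulVec, dotProduct, Fintype.sum_option, ext, extv, Pi.zero_apply] at this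
      simp only [dotProduct]
      rw [← this]; ring
  · rintro ⟨h1, h2⟩
    funext a
    cases a with
    | none =>
      simp only [Matrix.mulVec, dotProduct, Fintype.sum_option, ext, extv, Pi.zero_apply]
      simp only [dotProduct] at h2
      rw [← h2]; ring
    | some q =>
      have := congrFun h1 q
      simp only [Matrix.mulVec, dotProduct, Pi.add_apply, Pi.smul_apply, smul_eq_mul,
        Pi.zero_apply] at this
      simp only [Matrix.mulVec, dotProduct, Fintype.sum_option, ext, extv, Pi.zero_apply]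
      rw [← this]; ring

def optEquiv : ZMod 2 × (V → ZMod 2) ≃ (Option V → ZMod 2) where
  toFun p := extv p.2 p.1
  invFun v := (v none, fun q => v (some q))
  left_inv p := rfl
  right_inv v := by funext a; cases a <;> rfl

theorem add_eq_zero_iff2 (a b : V → ZMod 2) : a + b = 0 ↔ a = b := by
  have h : ∀ s t : ZMod 2, s + t = 0 ↔ s = t := by decide
  constructor
  · intro h1
    funext q
    exact (h _ _).1 (congrFun h1 q)
  · rintro rfl
    funext q
    exact (h _ _).2 rfl

theorem card_ker_ext (M : Matrix V V (ZMod 2)) (φ ψ : V → ZMod 2) (w : ZMod 2) :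
    (2 : ℕ) ^ ck (ext M φ ψ w) = kc M ψ 0 +
      (univ.filter fun x : V → ZMod 2 => M.mulVec x = φ ∧ dotProduct ψ x = w).card := by
  have h : ∀ s t : ZMod 2, s + t = 0 ↔ s = t := by decide
  rw [← card_ker]
  unfold kc
  simp only [Finset.card_filter]
  rw [← Equiv.sum_comp optEquiv, Fintype.sum_prod_type, sum_two]
  congr 1
  · refine Finset.sum_congr rfl fun x _ => ?_
    have : (ext M φ ψ w).mulVec (optEquiv (0, x)) = 0 ↔
        M.mulVec x = 0 ∧ dotProduct ψ x = 0 := by
      change (ext M φ ψ w).mulVec (extv x 0) = 0 ↔ _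
      rw [ext_mulVec]
      simp
    simp only [this]
  · refine Finset.sum_congr rfl fun x _ => ?_
    have : (ext M φ ψ w).mulVec (optEquiv (1, x)) = 0 ↔
        M.mulVec x = φ ∧ dotProduct ψ x = w := by
      change (ext M φ ψ w).mulVec (extv x 1) = 0 ↔ _
      rw [ext_mulVec, one_smul, mul_one, add_eq_zero_iff2, h]
    simp only [this]

theorem card_fib {M : Matrix V V (ZMod 2)} {φ ψ x0 : V → ZMod 2} (hx : M.mulVec x0 = φ)
    (w : ZMod 2) : (univ.filter fun x : V → ZMod 2 => M.mulVec x = φ ∧ dotProduct ψ x = w).card =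
      kc M ψ (w + dotProduct ψ x0) := by
  unfold kc
  apply Finset.card_equiv (Equiv.addRight x0)
  intro x
  simp only [Finset.mem_filter, Finset.mem_univ, true_and, Equiv.coe_addRight]
  rw [Matrix.mulVec_add, hx, add_eq_zero_iff2, dotProduct_add]
  have h4 : ∀ a b c : ZMod 2, a = b ↔ a + c = b + c := by decide
  rw [← h4]

theorem card_fib_empty {M : Matrix V V (ZMod 2)} {φ ψ : V → ZMod 2}
    (hx : ¬ ∃ x0, M.mulVec x0 = φ) (w : ZMod 2) :
    (univ.filter fun x : V → ZMod 2 => M.mulVec x = φ ∧ dotProduct ψ x = w).card = 0 := by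
  rw [Finset.card_eq_zero, Finset.filter_eq_empty_iff]
  rintro x - ⟨h1, -⟩
  exact hx ⟨x, h1⟩

theorem pow_inj {a b : ℕ} (h : (2 : ℕ) ^ a = 2 ^ b) : a = b :=
  Nat.pow_right_injective le_rfl h

theorem sum_AB {M : Matrix V V (ZMod 2)} {φ ψ : V → ZMod 2} (hA : ∃ x0, M.mulVec x0 = φ)
    (hB : Bp M ψ) (f : ℕ → ℝ) :
    ∑ w : ZMod 2, f (ck (ext M φ ψ w)) = f (ck M + 1) + f (ck M) := by
  obtain ⟨x0, hx⟩ := hA
  have key : ∀ w : ZMod 2, (2 : ℕ) ^ ck (ext M φ ψ w) = 2 ^ ck M +
      kc M ψ (w + dotProduct ψ x0) := by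
    intro w
    rw [card_ker_ext, card_fib hx, kc_zero_of hB]
  have h0 : ∀ w : ZMod 2, w + dotProduct ψ x0 = 0 → ck (ext M φ ψ w) = ck M + 1 := by
    intro w hw
    apply pow_inj
    rw [key w, hw, kc_zero_of hB, pow_succ]; ring
  have h1 : ∀ w : ZMod 2, w + dotProduct ψ x0 = 1 → ck (ext M φ ψ w) = ck M := by
    intro w hw
    apply pow_inj
    rw [key w, hw, kc_one_of hB, add_zero]
  rw [sum_two]
  have h2 : ∀ a : ZMod 2, a = 0 ∨ a = 1 := by decide
  rcases h2 (dotProduct ψ x0) with h | h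
  · rw [h0 0 (by rw [h]; decide), h1 1 (by rw [h]; decide)]
  · rw [h0 1 (by rw [h]; decide), h1 0 (by rw [h]; decide)]
    ring

theorem sum_AnB {M : Matrix V V (ZMod 2)} {φ ψ : V → ZMod 2} (hA : ∃ x0, M.mulVec x0 = φ)
    (hB : ¬ Bp M ψ) (f : ℕ → ℝ) :
    ∑ w : ZMod 2, f (ck (ext M φ ψ w)) = 2 * f (ck M) := by
  obtain ⟨x0, hx⟩ := hA
  have key : ∀ w : ZMod 2, ck (ext M φ ψ w) = ck M := by
    intro w
    apply pow_inj
    rw [card_ker_ext, card_fib hx, (kc_any_of_not hB _).1]
  rw [sum_two, key, key]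
  ring

theorem sum_nAB {M : Matrix V V (ZMod 2)} {φ ψ : V → ZMod 2} (hA : ¬ ∃ x0, M.mulVec x0 = φ)
    (hB : Bp M ψ) (f : ℕ → ℝ) :
    ∑ w : ZMod 2, f (ck (ext M φ ψ w)) = 2 * f (ck M) := by
  have key : ∀ w : ZMod 2, ck (ext M φ ψ w) = ck M := by
    intro w
    apply pow_inj
    rw [card_ker_ext, card_fib_empty hA, kc_zero_of hB, add_zero]
  rw [sum_two, key, key]
  ring

theorem sum_nAnB {M : Matrix V V (ZMod 2)} {φ ψ : V → ZMod 2} (hA : ¬ ∃ x0, M.mulVec x0 = φ)
    (hB : ¬ Bp M ψ) (f : ℕ → ℝ) :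
    ∑ w : ZMod 2, f (ck (ext M φ ψ w)) = 2 * f (ck M - 1) := by
  have key : ∀ w : ZMod 2, ck (ext M φ ψ w) = ck M - 1 := by
    intro w
    apply pow_inj
    rw [card_ker_ext, card_fib_empty hA, add_zero]
    obtain ⟨h1, h2⟩ := kc_any_of_not hB 0
    obtain ⟨m, hm⟩ : ∃ m, ck M = m + 1 := ⟨ck M - 1, by omega⟩
    rw [hm] at h1 ⊢
    rw [pow_succ] at h1
    simp only [Nat.add_sub_cancel]
    omega
  rw [sum_two, key, key]
  ring

/-! ### Counting -/

theorem finrank_fun : Module.finrank (ZMod 2) (V → ZMod 2) = Fintype.card V := by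
  simp

theorem finrank_range (M : Matrix V V (ZMod 2)) :
    Module.finrank (ZMod 2) (LinearMap.range M.mulVecLin) + ck M = Fintype.card V := by
  have := LinearMap.finrank_range_add_finrank_ker M.mulVecLin
  rw [finrank_fun] at this
  exact this

theorem finrank_range_transpose (M : Matrix V V (ZMod 2)) :
    Module.finrank (ZMod 2) (LinearMap.range M.transpose.mulVecLin) + ck M = Fintype.card V := by
  have h : Module.finrank (ZMod 2) (LinearMap.range M.transpose.mulVecLin) =
      Module.finrank (ZMod 2) (LinearMap.range M.mulVecLin) := Matrix.rank_transpose M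
  rw [h]
  exact finrank_range M

theorem dot_transpose (M : Matrix V V (ZMod 2)) (y z : V → ZMod 2) :
    dotProduct y (M.transpose.mulVec z) = dotProduct (M.mulVec y) z := by
  rw [Matrix.mulVec_transpose, dotProduct_comm, ← Matrix.dotProduct_mulVec, dotProduct_comm]

theorem Bp_iff (M : Matrix V V (ZMod 2)) (ψ : V → ZMod 2) :
    Bp M ψ ↔ ψ ∈ LinearMap.range M.transpose.mulVecLin := by
  constructor
  · intro h
    by_contra hn
    obtain ⟨f, hf, hle⟩ := Submodule.exists_le_ker_of_notMem hn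
    obtain ⟨y, hy⟩ := functional_eq f
    apply hf
    rw [hy, dotProduct_comm]
    apply h
    funext i
    have h1 : f (M.transpose.mulVec (Pi.single i 1)) = 0 := by
      have : M.transpose.mulVec (Pi.single i 1) ∈ LinearMap.ker f :=
        hle ⟨Pi.single i 1, rfl⟩
      exact this
    rw [hy, dot_transpose] at h1
    simpa using h1
  · rintro ⟨y, rfl⟩ x hx
    rw [Matrix.mulVecLin_apply, dotProduct_comm, dot_transpose, hx, zero_dotProduct]

theorem sup_eq_top (M : Matrix V V (ZMod 2)) (h : sp M = 0) :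
    LinearMap.range M.mulVecLin ⊔ LinearMap.range M.transpose.mulVecLin = ⊤ := by
  by_contra hn
  obtain ⟨f, hf, hle⟩ := Submodule.exists_le_ker_of_lt_top _ (lt_top_iff_ne_top.2 hn)
  obtain ⟨y, hy⟩ := functional_eq f
  have hy0 : y ≠ 0 := by
    rintro rfl
    apply hf
    ext x
    simp [hy]
  unfold sp at h
  rw [Finset.card_eq_zero, Finset.filter_eq_empty_iff] at h
  apply h (Finset.mem_univ y)
  refine ⟨hy0, ?_, ?_⟩
  · funext i
    have h1 : f (M.transpose.mulVec (Pi.single i 1)) = 0 := by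
      have : M.transpose.mulVec (Pi.single i 1) ∈ LinearMap.ker f :=
        hle (Submodule.mem_sup_right ⟨Pi.single i 1, rfl⟩)
      exact this
    rw [hy, dot_transpose] at h1
    simpa using h1
  · funext i
    have h1 : f (M.mulVec (Pi.single i 1)) = 0 := by
      have : M.mulVec (Pi.single i 1) ∈ LinearMap.ker f :=
        hle (Submodule.mem_sup_left ⟨Pi.single i 1, rfl⟩)
      exact this
    rw [hy, Matrix.dotProduct_mulVec] at h1
    simpa using h1

theorem real_pow {r s n : ℕ} (h : r + s = n) : (2 : ℝ) ^ n * (1 / 2 : ℝ) ^ s = 2 ^ r := by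
  rw [← h, pow_add, mul_assoc, ← mul_pow]
  norm_num

open Classical in
theorem card_A (M : Matrix V V (ZMod 2)) :
    ((univ.filter fun φ : V → ZMod 2 => ∃ x0, M.mulVec x0 = φ).card : ℝ) =
      2 ^ Fintype.card V * (1 / 2 : ℝ) ^ ck M := by
  rw [real_pow (finrank_range M), card_submodule (LinearMap.range M.mulVecLin) _ (fun φ => by
    rw [LinearMap.mem_range]; rfl)]
  push_cast
  rfl

open Classical in
theorem card_B (M : Matrix V V (ZMod 2)) (ν : V → ZMod 2) :
    ((univ.filter fun φ : V → ZMod 2 => Bp M (φ + ν)).card : ℝ) =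
      2 ^ Fintype.card V * (1 / 2 : ℝ) ^ ck M := by
  rw [real_pow (finrank_range_transpose M)]
  have h : (univ.filter fun φ : V → ZMod 2 => Bp M (φ + ν)).card =
      (univ.filter fun φ : V → ZMod 2 => Bp M φ).card := by
    apply Finset.card_equiv (Equiv.addRight ν)
    intro x
    simp only [Finset.mem_filter, Finset.mem_univ, true_and, Equiv.coe_addRight]
  rw [h, card_submodule (LinearMap.range M.transpose.mulVecLin) _ (fun φ => Bp_iff M φ)]
  push_cast
  rfl

open Classical in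
theorem card_AB (M : Matrix V V (ZMod 2)) (h : sp M = 0) (ν : V → ZMod 2) :
    ((univ.filter fun φ : V → ZMod 2 => (∃ x0, M.mulVec x0 = φ) ∧ Bp M (φ + ν)).card : ℝ) =
      2 ^ Fintype.card V * (1 / 2 : ℝ) ^ (2 * ck M) := by
  have htop := sup_eq_top M h
  have hν : ν ∈ LinearMap.range M.mulVecLin ⊔ LinearMap.range M.transpose.mulVecLin := by
    rw [htop]; trivial
  obtain ⟨p, hp, q, hq, hpq⟩ := Submodule.mem_sup.1 hν
  have hdim := Submodule.finrank_sup_add_finrank_inf_eq (LinearMap.range M.mulVecLin)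
    (LinearMap.range M.transpose.mulVecLin)
  rw [htop, finrank_top, finrank_fun] at hdim
  have h1 := finrank_range M
  have h2 := finrank_range_transpose M
  have h3 : Module.finrank (ZMod 2) (LinearMap.range M.mulVecLin ⊓
      LinearMap.range M.transpose.mulVecLin : Submodule (ZMod 2) (V → ZMod 2)) + 2 * ck M =
      Fintype.card V := by omega
  rw [real_pow h3]
  have h4 : (univ.filter fun φ : V → ZMod 2 => (∃ x0, M.mulVec x0 = φ) ∧ Bp M (φ + ν)).card =
      (univ.filter fun φ : V → ZMod 2 => φ ∈ (LinearMap.range M.mulVecLin ⊓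
      LinearMap.range M.transpose.mulVecLin : Submodule (ZMod 2) (V → ZMod 2))).card := by
    apply Finset.card_equiv (Equiv.addRight p)
    intro x
    simp only [Finset.mem_filter, Finset.mem_univ, true_and, Equiv.coe_addRight]
    rw [Submodule.mem_inf, Bp_iff, ← hpq, ← add_assoc, Submodule.add_mem_iff_left _ hq,
      Submodule.add_mem_iff_left _ hp, LinearMap.mem_range]
    rfl
  rw [h4, card_submodule _ _ (fun φ => Iff.rfl)]
  push_cast
  rfl

theorem stmtLA1_aux (M : Matrix V V (ZMod 2)) (ν : V → ZMod 2) (h : sp M = 0) (f : ℕ → ℝ) :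
    ∑ φ : V → ZMod 2, ∑ w : ZMod 2, f (ck (ext M φ (φ + ν) w)) =
    2 ^ (Fintype.card V + 1) * ((1 - (1 / 2 : ℝ) ^ ck M) ^ 2 * f (ck M - 1) +
      (1 - (1 - (1 / 2 : ℝ) ^ ck M) ^ 2 - (1 / 2 : ℝ) ^ (2 * ck M + 1)) * f (ck M) +
      (1 / 2 : ℝ) ^ (2 * ck M + 1) * f (ck M + 1)) := by
  classical
  have key : ∀ φ : V → ZMod 2, ∑ w : ZMod 2, f (ck (ext M φ (φ + ν) w)) =
      2 * f (ck M - 1) +
      (if (∃ x0, M.mulVec x0 = φ) then (1 : ℝ) else 0) * (2 * f (ck M) - 2 * f (ck M - 1)) +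
      (if Bp M (φ + ν) then (1 : ℝ) else 0) * (2 * f (ck M) - 2 * f (ck M - 1)) +
      (if ((∃ x0, M.mulVec x0 = φ) ∧ Bp M (φ + ν)) then (1 : ℝ) else 0) *
        (f (ck M + 1) - 3 * f (ck M) + 2 * f (ck M - 1)) := by
    intro φ
    by_cases hA : ∃ x0, M.mulVec x0 = φ <;> by_cases hB : Bp M (φ + ν)
    · rw [sum_AB hA hB, if_pos hA, if_pos hB, if_pos ⟨hA, hB⟩]
      ring
    · rw [sum_AnB hA hB, if_pos hA, if_neg hB, if_neg (fun h => hB h.2)]
      ring
    · rw [sum_nAB hA hB, if_neg hA, if_pos hB, if_neg (fun h => hA h.1)]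
      ring
    · rw [sum_nAnB hA hB, if_neg hA, if_neg hB, if_neg (fun h => hA h.1)]
      ring
  rw [Finset.sum_congr rfl fun φ _ => key φ, Finset.sum_add_distrib, Finset.sum_add_distrib,
    Finset.sum_add_distrib, ← Finset.sum_mul, ← Finset.sum_mul, ← Finset.sum_mul, ← Finset.sum_mul,
    Finset.sum_boole, Finset.sum_boole, Finset.sum_boole, card_A, card_B, card_AB M h,
    Finset.sum_const, Finset.card_univ, Fintype.card_fun, ZMod.card, nsmul_eq_mul]
  push_cast
  rw [pow_succ (2 : ℝ), pow_succ (1 / 2 : ℝ), mul_comm 2 (ck M), pow_mul]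
  ring

end

theorem stmtLA1 : StmtLA1 := by
  intro V _ _ M ν h f
  exact stmtLA1_aux M ν h f

end Vale.Agent.P017.R3.H916
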